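import Vale.Agent.P195A.FactT

/-!
# P195A: all basic facts on the filtered pieces `Dg k w d` of the Weyl algebra
(`FactE.lean` and `FactT.lean`)
-/
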